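import Vale.Agent.P300LO.Glue
import Vale.Agent.P300LE.Phi
import Vale.Agent.P300LG.Num
import Vale.Agent.P300LZ.Surf
import Mathlib.AlgebraicTopology.FundamentalGroupoid.SimplyConnected
import Mathlib.Analysis.Complex.BranchLogRoot
import Mathlib.Analysis.Convex.Contractible
import Mathlib.Analysis.Convex.PathConnected
import Mathlib.Topology.Algebra.Order.Floor

/-!
# P300LR: the two cycles of the exceptional curve and the winding homomorphism
-/

set_option linter.all false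

open Set Filter Topology Function Complex
open Vale.Agent.P272.K (Cm)
open Vale.Agent.P300LX Vale.Agent.P300LX.Dat Vale.Agent.P300LG
open Vale.Agent.P300LE (Ell Four cx)
open Vale.Agent.P300LZ (lat)

noncomputable section

namespace Vale.Agent.P300LR

section top

variable {X : Type} [TopologicalSpace X] (Φ : C(ℂ, X)) {a b c : X} {z z' z'' g g' : ℂ}

/-- the image of a segment -/
def sg (z z' : ℂ) (ha : Φ z = a) (hb : Φ z' = b) : Path a b :=
  ((Path.segment z z').map Φ.continuous).cast ha.symm hb.symm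

theorem sg_apply (ha : Φ z = a) (hb : Φ z' = b) (s : unitInterval) :
    sg Φ z z' ha hb s = Φ (z + (s : ℝ) * (z' - z)) := by
  refine congrArg Φ ?_
  simp [AffineMap.lineMap_apply, add_comm]

theorem sg_trans (ha : Φ z = a) (hb : Φ z' = b) (hc : Φ z'' = c) :
    ((sg Φ z z' ha hb).trans (sg Φ z' z'' hb hc)).Homotopic (sg Φ z z'' ha hc) := by
  subst ha hb hc
  have := (SimplyConnectedSpace.paths_homotopic ((Path.segment z z').trans (Path.segment z' z''))
    (Path.segment z z'')).map Φ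
  rwa [Path.map_trans] at this

theorem sg_self (ha : Φ z = a) : sg Φ z z ha ha = Path.refl a :=
  Path.ext (funext fun s => by rw [sg_apply, sub_self, mul_zero, add_zero, ha]; rfl)

/-- `g` is a period, and the loop from `z` to `z + g` is contractible -/
def Nl (z g : ℂ) : Prop :=
  ∃ e : ∀ x, Φ (x + g) = Φ x, (sg Φ z (z + g) rfl (e z)).Homotopic (Path.refl _)

variable {Φ}

theorem sg_per (e : ∀ x, Φ (x + g) = Φ x) (ha : Φ z = a) (hb : Φ z' = b) :
    sg Φ (z + g) (z' + g) ((e z).trans ha) ((e z').trans hb) = sg Φ z z' ha hb :=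
  Path.ext (funext fun s => by
    rw [sg_apply, sg_apply, add_sub_add_right_eq_sub, add_right_comm, e])

theorem Nl.move (h : Nl Φ z g) (z' : ℂ) : Nl Φ z' g :=
  let ⟨e, k⟩ := h
  ⟨e, ((sg_trans Φ rfl rfl (e z')).symm.trans ((Path.Homotopic.refl _).hcomp
    ((sg_trans Φ rfl (e z) (e z')).symm.trans ((k.hcomp (sg_per e rfl rfl ▸ .refl _)).trans
      (Path.Homotopic.refl_trans (sg Φ z z' rfl rfl)))))).trans
    (sg_self Φ (z := z') rfl ▸ sg_trans Φ rfl rfl rfl)⟩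

theorem Nl.add (h : Nl Φ z g) (h' : Nl Φ z g') : Nl Φ z (g + g') := by
  obtain ⟨e, k⟩ := h
  obtain ⟨e', k'⟩ := h'
  refine ⟨fun x => by rw [← add_assoc, e', e], ?_⟩
  have := sg_per e (z := z) rfl (e' z) ▸ k'
  have q : z + g' + g = z + (g + g') := by ring
  simpa only [q] using (sg_trans Φ rfl (e z) _).symm.trans ((k.hcomp this).trans
    (Path.Homotopic.refl_trans _))

theorem Nl.neg (h : Nl Φ z g) : Nl Φ z (-g) := by
  obtain ⟨e, k⟩ := h.move (z + -g)
  have q : z + -g + g = z := by ring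
  have e' : ∀ x, Φ (x + -g) = Φ x := fun x => by rw [← e, neg_add_cancel_right]
  have k' : (sg Φ (z + -g) z (e' z) rfl).Homotopic (Path.refl _) := by
    have := k.pathCast (e' z).symm (e' z).symm
    refine (congrArg₂ Path.Homotopic (Path.ext (funext fun s => ?_))
      (Path.ext (funext fun s => e' z))).mp this
    exact (sg_apply Φ rfl (e _) s).trans (by rw [sg_apply, q])
  exact ⟨e', (Path.Homotopic.trans_refl _).symm.trans (((Path.Homotopic.refl _).hcomp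
    k'.symm).trans (sg_self Φ (z := z) rfl ▸ sg_trans Φ rfl (e' z) rfl))⟩

theorem Nl.zsmul (h : Nl Φ z g) (n : ℤ) : Nl Φ z (n * g) := by
  induction n using Int.induction_on with
  | zero => exact ⟨fun x => by simp, by simpa using sg_self Φ (z := z) rfl ▸ .refl _⟩
  | succ n ih => simpa [add_mul] using ih.add h
  | pred n ih => simpa [sub_mul, sub_eq_add_neg, add_mul] using ih.add h.neg

theorem Nl.null (h : Nl Φ 0 g) : ∃ H : C(ℝ × ℝ, X), ∀ s : ℝ, H (s, 0) = Φ (s * g) ∧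
    H (s, 1) = Φ 0 ∧ H (0, s) = Φ 0 ∧ H (1, s) = Φ 0 := by
  obtain ⟨e, ⟨H⟩⟩ := h
  let P : ℝ → unitInterval := projIcc 0 1 zero_le_one
  have cP : Continuous P := continuous_projIcc
  have p0 : P 0 = 0 := projIcc_left _
  have p1 : P 1 = 1 := projIcc_right _
  have c := ContinuousOn.comp_fract' (f := fun t s : ℝ => H (P t, P s)) (H.continuous.comp
    ((cP.comp continuous_fst).prodMk (cP.comp continuous_snd))).continuousOn
    fun t => by simp only [p0, p1, H.source, H.target]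
  have n : ∀ (n : ℤ) x, Φ (x + n * g) = Φ x := fun n => (Periodic.int_mul e n :)
  refine ⟨⟨fun x => H (P x.2, P (Int.fract x.1)), c.comp continuous_swap⟩, fun s => ?_⟩
  simp only [ContinuousMap.coe_mk, p0, p1, Int.fract_zero, Int.fract_one, H.source, and_true]
  refine ⟨(H.apply_zero _).trans ((sg_apply ..).trans ?_), H.apply_one _⟩
  rw [show (P (Int.fract s) : ℝ) = Int.fract s from congrArg Subtype.val
    (projIcc_of_mem _ ⟨Int.fract_nonneg s, (Int.fract_lt_one s).le⟩), ← n ⌊s⌋, Int.fract]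
  refine congrArg Φ ?_
  push_cast
  ring

theorem nl_of (e : ∀ x, Φ (x + g) = Φ x)
    (h : (sg Φ z' z rfl rfl).Homotopic (sg Φ z' (z + g) rfl (e z))) : Nl Φ z g :=
  ⟨e, (sg_trans Φ rfl rfl (e z)).symm.trans (((Path.Homotopic.refl _).hcomp h.symm).trans
    (sg_self Φ (z := z) rfl ▸ sg_trans Φ rfl rfl rfl))⟩

theorem log_end {Y : Set X} {q : X → ℂ} (c : ContinuousOn q Y) (ne : ∀ y ∈ Y, q y ≠ 0)
    {γ γ' : Path a b} (H : γ.Homotopy γ') (m : ∀ x, H x ∈ Y) (F F' : C(unitInterval, ℂ))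
    (e : ∀ s, exp (F s) = q (γ s)) (e' : ∀ s, exp (F' s) = q (γ' s)) (h : F 0 = F' 0) :
    F 1 = F' 1 := by
  let G : C(unitInterval, ℂ) → C(unitInterval, {z : ℂ // z ≠ 0}) := fun F =>
    ⟨fun s => ⟨_, (F s).exp_ne_zero⟩, isCoveringMap_exp.continuous.comp F.continuous⟩
  have k : ∀ (F : C(unitInterval, ℂ)) x (h : F 0 = x),
      F = isCoveringMap_exp.liftPath (G F) x (h ▸ rfl) := fun F x h =>
    (isCoveringMap_exp.eq_liftPath_iff' _).2 ⟨rfl, h⟩
  refine (DFunLike.congr_fun (k F _ h) 1).trans (.trans ?_ (DFunLike.congr_fun (k F' _ rfl) 1).symm)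
  exact isCoveringMap_exp.liftPath_apply_one_eq_of_homotopicRel ⟨⟨⟨⟨fun x => ⟨_, ne _ (m x)⟩,
    (c.comp_continuous H.continuous m).subtype_mk _⟩,
    fun s => Subtype.ext ((congrArg q (H.apply_zero s)).trans (e s).symm),
    fun s => Subtype.ext ((congrArg q (H.apply_one s)).trans (e' s).symm)⟩,
    fun t s hs => Subtype.ext ((congrArg q (H.eq_fst t hs)).trans (e s).symm)⟩⟩ ..

/-- the winding homomorphism of a periodic function -/
theorem ex_wind {τ : ℂ} {f : ℂ → ℂ} (c : Continuous f) (ne : ∀ z, f z ≠ 0)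
    (per : ∀ z g, f (z + lat τ g) = f z) : ∃ (l : C(ℂ, ℂ)) (φ : ℤ × ℤ →+ ℤ),
      (∀ z, exp (l z) = f z) ∧ ∀ z g, l (z + lat τ g) = l z + 2 * Real.pi * I * φ g := by
  obtain ⟨l, ⟨-, hl⟩, -⟩ := isCoveringMap_exp.existsUnique_continuousMap_lifts
    ⟨fun z => ⟨_, ne z⟩, c.subtype_mk _⟩ 0 (log (f 0)) (Subtype.ext (exp_log (ne 0)))
  have e : ∀ z, exp (l z) = f z := fun z => congrArg Subtype.val (congrFun hl z)
  have k : ∀ g, ∃ n : ℤ, ∀ z, l (z + lat τ g) = l z + 2 * Real.pi * I * n := fun g => by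
    obtain ⟨n, hn⟩ := exp_eq_exp_iff_exists_int.1 ((e _).trans ((per 0 g).trans (e 0).symm))
    refine ⟨n, congrFun (isCoveringMap_exp.eq_of_comp_eq (by fun_prop) (by fun_prop)
      (funext fun z => Subtype.ext ?_) 0 (hn.trans (by ring)))⟩
    show exp _ = exp _
    rw [exp_add, mul_comm _ (n : ℂ), exp_int_mul_two_pi_mul_I, mul_one, e, e, per]
  choose n hn using k
  refine ⟨l, AddMonoidHom.mk' n fun g g' => ?_, e, fun z g => hn g z⟩
  have q : 0 + lat τ (g + g') = 0 + lat τ g + lat τ g' := by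
    simp only [lat, Prod.fst_add, Prod.snd_add]
    push_cast
    ring
  have := hn (g + g') 0
  rw [q, hn, hn] at this
  exact_mod_cast (mul_left_cancel₀ two_pi_I_ne_zero (by linear_combination -this) :
    (n (g + g') : ℂ) = n g + n g')

end top

variable {t : ℝ} {d : Fin 4 → Fin 2 → ℝ} {κ : ℂ} {D : Dat} {p : D.S} (E : Ell t d κ)
  (h : Four D p d κ)

theorem arc_of {z g : ℂ} {a b : Fin 2 → ℝ} {γ : ℝ → ℂ} (R : P300LE.Arc E.v E.w γ a b)
    (hγ : ∀ s : ℝ, γ s = z + s * (g / 2)) {i j : Fin 3} (hi : cx b = dir i) (hj : cx a = dir j)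
    (e : E.Φ h (z + g) = E.Φ h z) :
    Arc p i j (sg (E.Φ h) (z + g / 2) z rfl rfl) (sg (E.Φ h) (z + g / 2) (z + g) rfl e) := by
  intro s
  have m : (1 - s : ℝ) ∈ Icc (0 : ℝ) 1 := ⟨sub_nonneg.2 s.2.2, sub_le_self _ s.2.1⟩
  have l : (0 : ℝ) ∈ Icc (0 : ℝ) 1 := left_mem_Icc.2 zero_le_one
  have r : (1 : ℝ) ∈ Icc (0 : ℝ) 1 := right_mem_Icc.2 zero_le_one
  have k : ∀ u, Rep p (E.Φ h (γ u)) ((0, ((R.x u * R.B : ℝ) : ℂ) • dir i +
      (((1 - R.x u) * R.A : ℝ) : ℂ) • dir j), R.ω u) := fun u => by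
    have := (E.rep h (γ u)).scl (inv_ne_zero (R.μ0 u))
    rw [scl, h.k, zero_div, R.hv, R.hw, inv_smul_smul₀ (R.μ0 u), inv_pow,
      inv_mul_cancel_left₀ (pow_ne_zero 2 (R.μ0 u))] at this
    refine (congrArg (fun v => Rep p _ ((0, v), _)) (funext fun n => ?_)).mp this
    simp only [← hi, ← hj, cx, Pi.add_apply, Pi.smul_apply, smul_eq_mul]
    push_cast
    ring
  refine ⟨R.x (1 - s) * R.B, (1 - R.x (1 - s)) * R.A, R.ω (1 - s),
    mul_nonneg (R.x0 ▸ R.mono.monotoneOn l m m.1) R.B0.le,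
    mul_nonneg (sub_nonneg.2 ((R.mono.monotoneOn m r m.2).trans R.x1.le)) R.A0.le, ?_, ?_, ?_, ?_⟩
  · rw [mul_eq_zero_iff_right R.B0.ne', ← R.x0, R.mono.injOn.eq_iff m l, sub_eq_zero, eq_comm]
    exact Icc.coe_eq_one
  · rw [mul_eq_zero_iff_right R.A0.ne', sub_eq_zero, eq_comm]
    nth_rw 2 [← R.x1]
    rw [R.mono.injOn.eq_iff m r, sub_eq_self]
    exact Icc.coe_eq_zero
  · refine (congrArg (fun x => Rep p x _) ?_).mp (k _)
    rw [sg_apply, hγ]
    refine congrArg _ ?_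
    push_cast
    ring
  · rw [← R.ωs, ← R.xs]
    refine (congrArg (fun x => Rep p x _) ?_).mp (k _)
    rw [sg_apply, hγ]
    refine congrArg _ ?_
    push_cast
    ring

/-- the cycles of the curve die, and the trivialisations wind along them -/
theorem link (pol : POL) (wind : WIND) (A : Arr D) {y2 ρ : ℝ} (hP : Par A.ε y2 ρ) (Q : Clu A y2 ρ)
    (hp : p.1 = P0) (h0 : cx (d 0) = dir 2) (h1 : cx (d 1) = dir 1) (h2 : cx (d 2) = dir 0) :
    (∀ g, ∃ H : C(ℝ × ℝ, D.Xh), ∀ s : ℝ, H (s, 0) = E.Φ h (s * lat (t * I) g) ∧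
      H (s, 1) = E.Φ h 0 ∧ H (0, s) = E.Φ h 0 ∧ H (1, s) = E.Φ h 0) ∧
    ((∃ f u, A.Triv (Bl ρ) f u) → ∃ φ : ℤ × ℤ →+ ℤ, φ ≠ 0 ∧ ∀ W f u, Bl ρ ⊆ W → A.Triv W f u →
      ∃ l : C(ℂ, ℂ), (∀ z, exp (l z) = f (E.Φ h z)) ∧
        ∀ z g, l (z + lat (t * I) g) = l z + 2 * Real.pi * I * φ g) := by
  have per : ∀ z g, E.Φ h (z + lat (t * I) g) = E.Φ h z := E.per h
  have a := arc_of E h (z := P300LE.pt t 0 (1 / 2)) E.arcA
    (fun s => by simp only [P300LE.pt, lat]; push_cast; ring) h1 h0 (per _ (1, 0))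
  have b := arc_of E h (z := P300LE.pt t (1 / 2) (1 / 2)) E.arcB
    (fun s => by simp only [P300LE.pt, lat]; push_cast; ring) h2 h1 (per _ (0, 1))
  obtain ⟨H, hH⟩ := pol D A y2 ρ hP Q p hp 1 2 (.inr ⟨rfl, rfl⟩) _ _ a
  obtain ⟨H', hH'⟩ := pol D A y2 ρ hP Q p hp 0 1 (.inl ⟨rfl, rfl⟩) _ _ b
  refine ⟨fun g => Nl.null ?_, fun ⟨f₀, u₀, t₀⟩ => ?_⟩
  · have := (((nl_of (per · _) ⟨H⟩).move 0).zsmul g.1).add
      (((nl_of (per · _) ⟨H'⟩).move 0).zsmul g.2)
    simpa [lat] using this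
  have m : ∀ z, π (E.Φ h z) ∈ Bl ρ := fun z => by
    rw [E.π_Φ h, hp]
    exact nq_P0.trans (by linarith [hP.r1])
  have ex : ∀ W f u, Bl ρ ⊆ W → A.Triv W f u → ∃ (l : C(ℂ, ℂ)) (φ : ℤ × ℤ →+ ℤ),
      (∀ z, exp (l z) = f (E.Φ h z)) ∧
        ∀ z g, l (z + lat (t * I) g) = l z + 2 * Real.pi * I * φ g := fun W f u s T =>
    ex_wind (T.cont.comp_continuous (E.Φ h).continuous fun z => s (m z)) (fun z => T.ne _
      (s (m z)) fun β c => by
        obtain ⟨o, i, -, -, k, -⟩ := (A.ver _).1 p.2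
        exact A.dis β _ Sum.inl_ne_inr _ o (E.π_Φ h z ▸ c.1) k) fun z g => congrArg f (per z g)
  let F : C(ℂ, ℂ) → ℂ → ℂ → C(unitInterval, ℂ) := fun l z z' =>
    ⟨fun s => l (z + (s : ℝ) * (z' - z)), by fun_prop⟩
  have F0 : ∀ l z z', F l z z' 0 = l z := fun l z z' => congrArg l (by simp)
  have F1 : ∀ l z z', F l z z' 1 = l z' := fun l z z' => congrArg l (by simp)
  obtain ⟨l₀, φ, e₀, w₀⟩ := ex _ _ _ subset_rfl t₀
  refine ⟨φ, fun z => wind D A y2 ρ hP Q p hp _ _ b _ _ _ subset_rfl t₀ (F l₀ _ _) (F l₀ _ _)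
    (fun s => by rw [sg_apply]; exact e₀ _) (fun s => by rw [sg_apply]; exact e₀ _)
    (by rw [F0, F0]) (by rw [F1, F1, w₀, z]; simp), fun W f u s T => ?_⟩
  obtain ⟨l, ψ, e, w⟩ := ex W f u s T
  obtain ⟨q, c, hq⟩ := P300LO.ex_quot T t₀
  have k : ∀ z, exp ((l - l₀) z) = q (E.Φ h z) := fun z => by
    rw [ContinuousMap.sub_apply, exp_sub, e, (hq _ ⟨s (m z), m z⟩).2.1, ← e₀,
      mul_div_cancel_left₀ _ (exp_ne_zero _)]
  have key : ∀ z z' g (H : (sg (E.Φ h) z' z rfl rfl).Homotopy (sg (E.Φ h) z' _ rfl (per z g))),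
      (∀ x, π (H x) ∈ Bl ρ) → ψ g = φ g := fun z z' g H hH => by
    have := log_end c (fun y k => (hq y k).1) H (fun x => ⟨s (hH x), hH x⟩) (F (l - l₀) _ _)
      (F (l - l₀) _ _) (fun s => by rw [sg_apply]; exact k _)
      (fun s => by rw [sg_apply]; exact k _) (by rw [F0, F0])
    rw [F1, F1, ContinuousMap.sub_apply, ContinuousMap.sub_apply, w, w₀] at this
    exact_mod_cast (mul_left_cancel₀ two_pi_I_ne_zero (by linear_combination -this) :
      (ψ g : ℂ) = φ g)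
  obtain rfl : ψ = φ := AddMonoidHom.ext fun g => by
    have : g = g.1 • ((1, 0) : ℤ × ℤ) + g.2 • ((0, 1) : ℤ × ℤ) := by simp
    rw [this, map_add, map_add, map_zsmul, map_zsmul, map_zsmul, map_zsmul, key _ _ _ H hH,
      key _ _ _ H' hH']
  exact ⟨l, e, w⟩

end Vale.Agent.P300LR
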