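import Vale.Agent.P300LO.Defs
import Vale.Agent.P300LX.Top

/-!
# P300L: the step map of the forest induction
-/

open Set Filter Topology Function
open Vale.Agent.P272.K (Cm)
open Vale.Agent.P300LX Vale.Agent.P300LX.Dat Vale.Agent.P300LG

noncomputable section

namespace Vale.Agent.P300LR

variable {D : Dat} {A : Arr D} {K W W' : Set (Cm 2)} {H : Cm 2 → Cm 2} {ρ : Cm 2 → ℂ}
  {R : A.ι ⊕ A.κ → Cm 2 → ℂ}

variable (A) in
/-- a map `H` which keeps all lines and the chosen sheets and is the identity near the vertices -/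
structure Mv (K : Set (Cm 2)) (H : Cm 2 → Cm 2) (ρ : Cm 2 → ℂ) (R : A.ι ⊕ A.κ → Cm 2 → ℂ) :
    Prop where
  cH : ContinuousOn H K
  om : ∀ x ∈ K, H x ∈ D.Om
  cρ : ContinuousOn ρ K
  ρ0 : ∀ x ∈ K, ρ x ≠ 0
  hh : ∀ x ∈ K, D.h (H x) = ρ x ^ 2 * D.h x
  cR : ∀ L, ContinuousOn (R L) K
  R0 : ∀ L, ∀ x ∈ K, R L x ≠ 0
  hR : ∀ L, ∀ x ∈ K, ev (A.fm L) (H x) = R L x * ev (A.fm L) x
  id : ∀ p ∈ D.S, ∀ᶠ x in 𝓝 p, x ∈ K → H x = x ∧ ρ x = 1
  sd : ∀ β, ∀ x ∈ K, ev (A.fm (.inr β)) x = 0 → A.sd β (H x) = ρ x * A.sd β x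

/-- the lift to the double cover -/
theorem Mv.lift (h : Mv A K H ρ R) : ∃ G : D.Xh → D.Xh, ContinuousOn G (π ⁻¹' K) ∧
    ∀ y, π y ∈ K → π (G y) = H (π y) ∧ w (G y) = ρ (π y) * w y := by
  classical
  have h0 : ∀ y : D.Xh, π y ∈ K → π y ∉ D.S → H (π y) ∉ D.S := fun y k k' e => by
    obtain ⟨-, i, j, l, e1, e2⟩ := (A.ver _).1 e
    rw [h.hR _ _ k] at e1 e2
    exact k' ((A.ver _).2 ⟨π_mem y, i, j, l, (mul_eq_zero.1 e1).resolve_left (h.R0 _ _ k),
      (mul_eq_zero.1 e2).resolve_left (h.R0 _ _ k)⟩)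
  let G : D.Xh → D.Xh := fun y => if k : π y ∈ K ∧ π y ∉ D.S then
    pt0 ⟨(H (π y), ρ (π y) * w y), h.om _ k.1, h0 y k.1 k.2, by rw [mul_pow, w_sq, h.hh _ k.1]⟩
    else y
  have h1 : ∀ y, π y ∈ K → π (G y) = H (π y) ∧ w (G y) = ρ (π y) * w y := fun y k => by
    by_cases k' : π y ∈ D.S
    · have := (h.id _ k').self_of_nhds k
      simp only [G, k', not_true, and_false, dif_neg, not_false_iff, this.1, this.2, one_mul,
        and_self]
    · simp only [G, dif_pos (And.intro k k')]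
      exact ⟨rfl, rfl⟩
  refine ⟨G, fun y k => ?_, h1⟩
  have c1 : ContinuousWithinAt (π : D.Xh → _) (π ⁻¹' K) y := cont_π.continuousWithinAt
  by_cases k' : π y ∈ D.S
  · have e : ∀ᶠ z in 𝓝 y, π z ∈ K → G z = z :=
      (cont_π.continuousAt.eventually (h.id _ k')).mono fun z hz l => by
        by_cases l' : π z ∈ D.S
        · exact dif_neg fun m => m.2 l'
        · exact (ext0 l' ((h1 z l).1.trans (hz l).1).symm
            (by rw [(h1 z l).2, (hz l).2, one_mul])).symm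
    exact continuousWithinAt_id.congr_of_eventuallyEq (eventually_nhdsWithin_iff.2 e)
      (e.self_of_nhds k)
  · refine tendsto0 ((h1 y k).1.symm ▸ h0 y k k') ?_ ?_
    · exact ((h.cH _ k).comp c1 (mapsTo_preimage _ _)).congr (fun z l => (h1 z l).1) (h1 y k).1
    · exact (((h.cρ _ k).comp c1 (mapsTo_preimage _ _)).mul cont_w.continuousWithinAt).congr
        (fun z l => (h1 z l).2) (h1 y k).2

/-- a trivialisation can be pulled back -/
theorem Mv.triv (h : Mv A K H ρ R) (hW : W' ⊆ K) (m : MapsTo H W' W) {f u} (t : A.Triv W f u) :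
    ∃ f u, A.Triv W' f u := by
  obtain ⟨G, g1, g2⟩ := h.lift
  have m1 : ∀ y, π y ∈ W' → π (G y) ∈ W := fun y k => (g2 y (hW k)).1.symm ▸ m k
  have z : ∀ β y, π y ∈ W' → ev (A.fm (.inr β)) (π (G y)) = 0 → ev (A.fm (.inr β)) (π y) = 0 :=
    fun β y k e => by
      rw [(g2 y (hW k)).1, h.hR _ _ (hW k)] at e
      exact (mul_eq_zero.1 e).resolve_left (h.R0 _ _ (hW k))
  have m2 : ∀ α y, π y ∈ W' → y ∈ A.O α → G y ∈ A.O α := fun α y k o β e => by
    obtain ⟨rfl, e'⟩ := o β (z β y k e)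
    exact ⟨rfl, by rw [(g2 y (hW k)).2, (g2 y (hW k)).1, h.sd _ _ (hW k) (z β y k e), e']⟩
  refine ⟨fun y => f (G y), fun α y => u α (G y) * R (.inr α) (π y),
    t.cont.comp (g1.mono fun _ k => hW k) m1, fun y k l => t.ne _ (m1 y k) fun β e => l β
      ⟨z β y k e.1, mul_left_cancel₀ (h.ρ0 _ (hW k)) ?_⟩, fun α => ?_,
    fun α y k o => mul_ne_zero (t.une α _ (m1 y k) (m2 α y k o)) (h.R0 _ _ (hW k)),
    fun α y k o => ?_⟩
  · rw [← (g2 y (hW k)).2, e.2, (g2 y (hW k)).1, h.sd _ _ (hW k) (z β y k e.1)]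
  · exact ((t.ucont α).comp (g1.mono fun _ k => hW k.1) fun y k => ⟨m1 y k.1, m2 α y k.1 k.2⟩).mul
      ((h.cR _).comp cont_π.continuousOn fun _ k => hW k.1)
  · rw [t.eq α _ (m1 y k) (m2 α y k o), (g2 y (hW k)).1, h.hR _ _ (hW k), mul_assoc]

@[fun_prop] theorem cont_nq : Continuous nq := by
  unfold nq
  fun_prop

@[fun_prop] theorem cont_ev (a : Af) : Continuous (ev a) := continuous_const.add a.2.continuous

theorem cvx_nq : ConvexOn ℝ univ nq := by
  have h : ∀ a : Fin 2, ConvexOn ℝ univ fun z : Cm 2 => ‖z a‖ ^ 2 := fun a =>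
    ConvexOn.pow (convexOn_univ_norm.comp_linearMap
      (LinearMap.proj (R := ℝ) (φ := fun _ : Fin 2 => ℂ) a)) (fun _ _ => norm_nonneg _) 2
  exact (h 0).add (h 1)

theorem cvx_Bl (r : ℝ) : Convex ℝ (Bl r) := by simpa [Bl] using cvx_nq.convex_le r

theorem cpt_Bl (r : ℝ) : IsCompact (Bl r) :=
  Metric.isCompact_of_isClosed_isBounded (isClosed_le cont_nq continuous_const)
    ((Metric.isBounded_closedBall (x := 0) (r := |r| + 1)).subset fun z hz => by
      have h1 : ‖z 0‖ ^ 2 + ‖z 1‖ ^ 2 ≤ r := hz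
      have := le_abs_self r
      rw [mem_closedBall_zero_iff, pi_norm_le_iff_of_nonneg (by positivity), Fin.forall_fin_two]
      constructor <;> nlinarith [sq_nonneg (‖z 0‖ - 1), sq_nonneg (‖z 1‖ - 1), sq_nonneg ‖z 0‖,
        sq_nonneg ‖z 1‖, abs_nonneg r])

theorem cvx_mem {C : Set (Cm 2)} (hC : Convex ℝ C) {x : Cm 2} (hx : x ∈ C) {J : Type} [Fintype J]
    {a : J → ℝ} (h0 : ∀ j, 0 ≤ a j) (h1 : ∑ j, a j ≤ 1) {t : J → Cm 2}
    (ht : ∀ j, a j ≠ 0 → t j ∈ C) : x + ∑ j, a j • (t j - x) ∈ C := by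
  classical
  have h := hC.sum_mem (t := Finset.univ) (w := fun o : Option J => o.elim (1 - ∑ j, a j) a)
    (z := fun o => o.elim x fun j => if a j = 0 then x else t j)
    (fun o _ => by cases o; exacts [sub_nonneg.2 h1, h0 _]) (by simp)
    fun o _ => by
      cases o
      · exact hx
      · simp only [Option.elim_some]
        split_ifs with e
        exacts [hx, ht _ e]
  have e : ∀ j, a j • (if a j = 0 then x else t j) = a j • t j := fun j => by
    split_ifs with e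
    · rw [e, zero_smul, zero_smul]
    · rfl
  simp only [Fintype.sum_option, Option.elim_none, Option.elim_some, e] at h
  simp only [smul_sub, Finset.sum_sub_distrib, ← Finset.sum_smul]
  rwa [sub_smul, one_smul, sub_add_eq_add_sub, add_sub_assoc] at h

/-- the maps `x + s ∑ φ j x (t j - x)` for small `s` -/
theorem ex_mv {r : ℝ} (hr : r < A.ε) {J : Type} [Fintype J] {φ : J → Cm 2 → ℝ} {t : J → Cm 2}
    (hc : ∀ j, Continuous (φ j)) (h0 : ∀ j x, 0 ≤ φ j x) (h1 : ∀ x, ∑ j, φ j x ≤ 1)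
    (ht : ∀ j, t j ∈ Bl r) (hS : ∀ j, ∀ x ∈ tsupport (φ j), x ∉ D.S)
    (key : ∀ j L, ∀ x ∈ Bl r, x ∈ tsupport (φ j) → ev (A.fm L) x = 0 → ev (A.fm L) (t j) = 0) :
    ∃ s ∈ Ioc (0 : ℝ) 1, ∃ ρ R, Mv A (Bl r) (fun x => x + ∑ j, (s * φ j x) • (t j - x)) ρ R := by
  obtain ⟨T, U, u1, u2, -⟩ := A.fac r hr
  have om : ∀ x ∈ Bl r, x ∈ D.Om := fun x k => A.om ▸ k.trans_lt hr
  let H : ℝ × Cm 2 → Cm 2 := fun z => z.2 + ∑ j, (z.1 * φ j z.2) • (t j - z.2)
  let R : A.ι ⊕ A.κ → ℝ × Cm 2 → ℂ := fun L z =>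
    1 + ∑ j, (z.1 * φ j z.2 : ℝ) * (ev (A.fm L) (t j) / ev (A.fm L) z.2 - 1)
  let G : ℝ × Cm 2 → ℂ := fun z => U (H z) / U z.2 * ∏ i ∈ T, R (.inl i) z
  let Q : Set (ℝ × Cm 2) := Icc 0 1 ×ˢ Bl r
  have cH : Continuous H := by fun_prop
  have mH : ∀ z ∈ Q, H z ∈ Bl r := fun z k => cvx_mem (cvx_Bl r) k.2
    (fun j => mul_nonneg k.1.1 (h0 _ _)) (by
      rw [← Finset.mul_sum]
      exact mul_le_one₀ k.1.2 (Finset.sum_nonneg fun j _ => h0 _ _) (h1 _)) fun j _ => ht j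
  have hR : ∀ L, ∀ z ∈ Q, ev (A.fm L) (H z) = R L z * ev (A.fm L) z.2 := fun L z k => by
    simp only [H, R, add_mul, one_mul, Finset.sum_mul, ← Complex.coe_smul]
    rw [ev, map_add, ← add_assoc, map_sum]
    refine congrArg₂ _ rfl (Finset.sum_congr rfl fun j _ => ?_)
    rw [map_smul, map_sub, smul_eq_mul, ← add_sub_add_left_eq_sub _ _ (A.fm L).1, mul_assoc]
    change _ * (ev _ _ - ev _ _) = _
    by_cases e : ev (A.fm L) z.2 = 0
    · by_cases e' : φ j z.2 = 0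
      · simp [e']
      · simp [e, key j L _ k.2 (subset_tsupport _ e') e]
    · rw [sub_mul, div_mul_cancel₀ _ e, one_mul]
  have cR : ∀ L, ContinuousOn (R L) Q := fun L => continuousOn_const.add
    (continuousOn_finsetSum _ fun j _ z k => by
      by_cases e : z.2 ∈ tsupport (φ j)
      · by_cases e' : ev (A.fm L) (t j) = 0
        · simp only [e', zero_div]
          fun_prop
        · have := mt (key j L _ k.2 e) e'
          exact ContinuousAt.continuousWithinAt (by fun_prop (disch := assumption))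
      · refine (continuousAt_const (y := 0)).congr_of_eventuallyEq ?_ |>.continuousWithinAt
        filter_upwards [continuousAt_snd.eventually (notMem_tsupport_iff_eventuallyEq.1 e)]
          with y hy
        simp [show φ j y.2 = 0 from hy])
  have cG : ContinuousOn G Q := ((u1.comp cH.continuousOn mH).div
    (u1.comp continuousOn_snd fun _ k => k.2) fun z k => (u2 _ k.2).1).mul
      (continuousOn_finsetProd _ fun i _ => cR _)
  have hG : ∀ z ∈ Q, D.h (H z) = G z * D.h z.2 := fun z k => by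
    rw [(u2 _ (mH z k)).2, (u2 _ k.2).2, Finset.prod_congr rfl fun i _ => hR (.inl i) z k,
      Finset.prod_mul_distrib]
    have := (u2 _ k.2).1
    simp only [G]
    field_simp
  have one : ∀ z ∈ Q, (∀ j, z.1 * φ j z.2 = 0) → H z = z.2 ∧ (∀ L, R L z = 1) ∧ G z = 1 :=
    fun z k e => by simp [G, H, R, e, (u2 _ k.2).1, -Complex.ofReal_mul]
  obtain ⟨δ, d1, d2⟩ := Metric.eventually_nhds_iff.1
    ((cpt_Bl r).eventually_forall_of_forall_eventually (x₀ := (0 : ℝ))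
      (P := fun s x => (s, x) ∈ Q → G (s, x) ∈ Complex.slitPlane ∧
        ∀ L ∈ {L | ∃ z ∈ Bl r, ev (A.fm L) z = 0}, R L (s, x) ≠ 0) fun y k => by
      have k' : ((0 : ℝ), y) ∈ Q := ⟨⟨le_rfl, zero_le_one⟩, k⟩
      have := one _ k' fun _ => zero_mul _
      exact eventually_nhdsWithin_iff.1 (((cG _ k').eventually_mem
        (Complex.isOpen_slitPlane.mem_nhds (this.2.2.symm ▸ Complex.one_mem_slitPlane))).and
        ((eventually_all_finite (A.fin r hr)).2 fun L _ => (cR L _ k').eventually_ne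
          ((this.2.1 L).trans_ne one_ne_zero))))
  let s := min (δ / 2) 1
  have s0 : 0 < s := lt_min (half_pos d1) one_pos
  have mQ : ∀ a ∈ Icc 0 s, ∀ x ∈ Bl r, (a, x) ∈ Q := fun a k x k' =>
    ⟨⟨k.1, k.2.trans (min_le_right _ _)⟩, k'⟩
  have d3 := fun a (k : a ∈ Icc 0 s) x k' => d2 (y := a) (by
    rw [Real.dist_eq, sub_zero, abs_of_nonneg k.1]
    exact (k.2.trans (min_le_left _ _)).trans_lt (half_lt_self d1)) x k' (mQ a k x k')
  have ss : s ∈ Icc 0 s := ⟨s0.le, le_rfl⟩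
  have sq : ∀ z, (G z ^ (2⁻¹ : ℂ)) ^ 2 = G z := fun z => Complex.cpow_ofNat_inv_pow _ 2
  have nz : ∀ a ∈ Icc 0 s, ∀ x ∈ Bl r, G (a, x) ^ (2⁻¹ : ℂ) ≠ 0 := fun a k x k' e =>
    Complex.slitPlane_ne_zero (d3 a k x k').1 (by rw [← sq, e, zero_pow two_ne_zero])
  have cs : ContinuousOn (fun x : Cm 2 => (s, x)) (Bl r) := by fun_prop
  refine ⟨s, ⟨s0, min_le_right _ _⟩, fun x => G (s, x) ^ (2⁻¹ : ℂ), fun L x => R L (s, x),
    cH.comp_continuousOn cs, fun x k => om _ (mH _ (mQ s ss x k)),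
    (cG.comp cs (mQ s ss)).cpow_const fun x k => (d3 s ss x k).1, nz s ss,
    fun x k => by rw [sq, ← hG _ (mQ s ss x k)], fun L => (cR L).comp cs (mQ s ss),
    fun L x k e => ?_, fun L x k => hR L _ (mQ s ss x k), fun p hp => ?_, fun β x k e => ?_⟩
  · exact (d3 s ss x k).2 L ⟨_, mH _ (mQ s ss x k), by rw [hR L _ (mQ s ss x k), e, zero_mul]⟩ e
  · filter_upwards [eventually_all.2 fun j => notMem_tsupport_iff_eventuallyEq.1
      fun k => hS j p k hp] with x hx k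
    have := one _ (mQ s ss x k) fun j => mul_eq_zero_of_right _ (hx j)
    exact ⟨this.1, by rw [this.2.2, Complex.one_cpow]⟩
  · have ca : ContinuousOn (fun a : ℝ => (a, x)) (Icc 0 s) := by fun_prop
    have m : ∀ a ∈ Icc 0 s, H (a, x) ∈ D.Om ∧ ev (A.fm (.inr β)) (H (a, x)) = 0 := fun a l =>
      ⟨om _ (mH _ (mQ a l x k)), by rw [hR _ _ (mQ a l x k), e, mul_zero]⟩
    have o := one _ (mQ 0 ⟨le_rfl, s0.le⟩ x k) fun _ => zero_mul _
    refine isPreconnected_Icc.eq_of_sq_eq (f := fun a => A.sd β (H (a, x)))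
      (g := fun a => G (a, x) ^ (2⁻¹ : ℂ) * A.sd β x)
      ((A.sd_cont β).comp (cH.comp_continuousOn ca) m)
      (((cG.comp ca fun a l => mQ a l x k).cpow_const fun a l => (d3 a l x k).1).mul
        continuousOn_const) (fun a l => ?_) (fun {a} l => mul_ne_zero (nz a l x k) fun e' => ?_)
      ⟨le_rfl, s0.le⟩ (by simp only [o.1, o.2.2, Complex.one_cpow, one_mul]) ss
    · simp only [Pi.pow_apply, mul_pow, sq]
      rw [A.sd_sq β _ (m a l).1 (m a l).2, A.sd_sq β _ (om x k) e, hG _ (mQ a l x k)]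
    · have := A.sd_sq β _ (om x k) e
      rw [e', zero_pow two_ne_zero, (u2 x k).2] at this
      exact mul_ne_zero (u2 x k).1 (Finset.prod_ne_zero_iff.2 fun i _ =>
        A.dis β _ Sum.inl_ne_inr x (om x k) e) this.symm

theorem step' (A : Arr D) {I : Type} [Finite I] {B : I → Set (Cm 2)} (b1 : ∀ i, IsCompact (B i))
    (b2 : ∀ i, Convex ℝ (B i)) (b3 : ∀ i, B i ⊆ D.Om) {r : ℝ} (hr : r < A.ε)
    (h : ∀ x, nq x = r → (∀ i, x ∉ interior (B i)) → x ∉ D.S ∧ ∃ t, nq t < r ∧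
      (∀ L, ev (A.fm L) x = 0 → ev (A.fm L) t = 0) ∧ ∀ i, x ∈ B i → t ∈ B i) :
    ∃ η₀ > 0, ∀ η ∈ Ioc 0 η₀, (∃ f u, A.Triv (Bl (r - η) ∪ ⋃ i, B i) f u) →
      ∃ f u, A.Triv (Bl (r + η) ∪ ⋃ i, B i) f u := by
  obtain ⟨a, a1, a2⟩ := ((cpt_Bl r).union (isCompact_iUnion b1)).exists_forall_le'
    (f := fun x => A.ε - nq x) (by fun_prop) (a := 0) fun x hx => sub_pos.2 (hx.elim
      (fun k => k.trans_lt hr) fun k => let ⟨i, k⟩ := mem_iUnion.1 k; (A.om ▸ b3 i k :))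
  obtain ⟨r', r1, r2⟩ := exists_between (max_lt hr (sub_lt_self A.ε a1))
  have r3 : r < r' := (le_max_left _ _).trans_lt r1
  have bK : ∀ i, B i ⊆ Bl r' := fun i x k => by
    have := a2 x (.inr (mem_iUnion.2 ⟨i, k⟩))
    have := (le_max_right _ _).trans_lt r1
    exact show nq x ≤ r' by linarith
  have oI : IsOpen (⋃ i, interior (B i)) := isOpen_iUnion fun _ => isOpen_interior
  let Z : Set (Cm 2) := {x | nq x = r} \ ⋃ i, interior (B i)
  have cZ : IsClosed Z := (isClosed_eq cont_nq continuous_const).sdiff oI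
  choose hS t t1 t2 t3 using fun x : Z => h x x.2.1 fun i k => x.2.2 (mem_iUnion.2 ⟨i, k⟩)
  let N : Cm 2 → Set (Cm 2) := fun x => {y | y ∉ D.S ∧ (∀ L ∈ {L | ∃ z ∈ Bl r', ev (A.fm L) z = 0},
    ev (A.fm L) x ≠ 0 → ev (A.fm L) y ≠ 0) ∧ ∀ i, x ∉ B i → y ∉ B i}
  obtain ⟨T, hT⟩ := ((cpt_Bl r).of_isClosed_subset cZ fun x k => k.1.le).elim_nhds_subcover'
    (fun x _ => interior (N x)) fun x k => interior_mem_nhds.2 (by
      filter_upwards [D.isOpen_off.mem_nhds ⟨A.om ▸ k.1.trans_lt hr, hS ⟨x, k⟩⟩,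
        (eventually_all_finite (A.fin r' r2)).2 fun L _ => eventually_imp_distrib_left.2
          fun e : ev (A.fm L) x ≠ 0 => (cont_ev _).continuousAt.eventually_ne e,
        eventually_all.2 fun i => eventually_imp_distrib_left.2
          fun e : x ∉ B i => (b1 i).isClosed.isOpen_compl.eventually_mem e] with y y1 y2 y3
      exact ⟨y1.2, y2, y3⟩)
  obtain ⟨φ, hφ⟩ := PartitionOfUnity.exists_isSubordinate cZ (fun j : T => interior (N j.1))
    (fun _ => isOpen_interior) fun x k => by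
      obtain ⟨j, k1, k2⟩ := mem_iUnion₂.1 (hT k)
      exact mem_iUnion.2 ⟨⟨j, k1⟩, k2⟩
  have hN : ∀ j, ∀ x ∈ tsupport (φ j), x ∈ N j.1 := fun j x k => interior_subset (hφ j k)
  have h1 : ∀ x, ∑ j, φ j x ≤ 1 := fun x =>
    finsum_eq_sum_of_fintype (fun j => φ j x) ▸ φ.sum_le_one x
  obtain ⟨s, hs, ρ, R, hm⟩ := ex_mv (A := A) r2 (φ := fun j => φ j) (t := fun j => t j.1)
    (fun j => (φ j).continuous) φ.nonneg h1 (fun j => ((t1 _).trans r3).le)
    (fun j x k => (hN j x k).1)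
    fun j L x k k' e => t2 _ L (by_contra fun e' => (hN j x k').2.1 L ⟨x, k, e⟩ e' e)
  set H : Cm 2 → Cm 2 := fun x => x + ∑ j, (s * φ j x) • (t j.1 - x) with hH
  have mem : ∀ C, Convex ℝ C → ∀ x ∈ C, (∀ j, φ j x ≠ 0 → t j.1 ∈ C) → H x ∈ C :=
    fun C c x k k' => cvx_mem c k (fun j => mul_nonneg hs.1.le (φ.nonneg _ _)) (by
      rw [← Finset.mul_sum]
      exact mul_le_one₀ hs.2 (Finset.sum_nonneg fun j _ => φ.nonneg _ _) (h1 _))
      fun j e => k' j (right_ne_zero_of_mul e)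
  have mB : ∀ i, ∀ x ∈ B i, H x ∈ B i := fun i x k => mem _ (b2 i) x k fun j e =>
    t3 _ i (by_contra fun e' => (hN j x (subset_tsupport _ e)).2.2 i e' k)
  have co : Convex ℝ {z | nq z < r} := by simpa using cvx_nq.convex_lt r
  have lt : ∀ x, x ∉ ⋃ i, interior (B i) → nq x ≤ r → nq (H x) < r := fun x k l => by
    rcases l.lt_or_eq with l | l
    · exact mem _ co x l fun j _ => t1 _
    · have e1 : ∑ j, φ j x = 1 := finsum_eq_sum_of_fintype (fun j => φ j x) ▸ φ.sum_eq_one ⟨l, k⟩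
      have e2 : nq (∑ j, φ j x • t j.1) < r :=
        co.sum_mem (fun j _ => φ.nonneg j x) e1 fun j _ => t1 _
      have e3 : H x = (1 - s) • x + s • ∑ j, φ j x • t j.1 := by
        simp only [hH, mul_smul, ← Finset.smul_sum, smul_sub, Finset.sum_sub_distrib,
          ← Finset.sum_smul, e1, one_smul, sub_smul]
        abel
      have e4 := cvx_nq.2 (mem_univ x) (mem_univ (∑ j, φ j x • t j.1)) (sub_nonneg.2 hs.2) hs.1.le
        (sub_add_cancel 1 s)
      rw [← e3, smul_eq_mul, smul_eq_mul, l] at e4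
      nlinarith [hs.1]
  obtain ⟨c, c1, c2⟩ := ((cpt_Bl r').diff oI).exists_forall_le'
    (f := fun x => max (r - nq (H x)) (nq x - r))
    (((continuousOn_const.sub (cont_nq.comp_continuousOn hm.cH)).mono sdiff_subset).sup
      (by fun_prop)) (a := 0) fun x k => lt_max_iff.2 ((le_or_gt (nq x) r).imp
        (fun l => sub_pos.2 (lt x k.2 l)) sub_pos.2)
  refine ⟨min (c / 2) (r' - r), lt_min (half_pos c1) (sub_pos.2 r3), fun η k ⟨f, u, tr⟩ => ?_⟩
  have k1 := k.2.trans (min_le_left _ _)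
  have k2 := k.2.trans (min_le_right _ _)
  have sub : Bl (r + η) ⊆ Bl r' := fun x l =>
    le_trans (b := r + η) l (show r + η ≤ r' by linarith)
  refine hm.triv (union_subset sub (iUnion_subset bK)) (fun x l => ?_) tr
  by_cases e : x ∈ ⋃ i, B i
  · obtain ⟨i, e⟩ := mem_iUnion.1 e
    exact .inr (mem_iUnion.2 ⟨i, mB i x e⟩)
  · have l1 : nq x ≤ r + η := l.resolve_right e
    have := le_max_iff.1 (c2 x ⟨sub l1, fun m => e (iUnion_mono (fun _ => interior_subset) m)⟩)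
    exact .inl (show nq (H x) ≤ r - η by rcases this with m | m <;> linarith)

/-- **STEP** -/
theorem step : P300LO.STEP := fun _ A _ _ _ _ hr hB _ h =>
  let ⟨η, h1, h2⟩ := step' A (fun i => (hB i).1) (fun i => (hB i).2.1) (fun i => (hB i).2.2) hr h
  ⟨η, h1, fun a k k' => h2 a ⟨k, k'⟩⟩

end Vale.Agent.P300LR
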