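import Vale.Agent.P300LZ.Mod
import Vale.Agent.P300LR.Link
import Vale.Agent.P300L.Su

/-!
# P300LR: the four tangents at the fourfold point, and the two elliptic curves
-/

set_option linter.all false

open Set Filter Topology Complex
open Vale.Agent.P272.K (Cm)
open Vale.Agent.P300LX Vale.Agent.P300LX.Dat Vale.Agent.P300LG
open Vale.Agent.P300LE (Ell Four cx dt dr)
open Vale.Agent.P300L (dv4)

noncomputable section

namespace Vale.Agent.P300LR

theorem dd0 (y2 : ℝ) : cx (dv4 y2 0) = dir 2 := by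
  funext i
  fin_cases i <;> simp [cx, dv4, dir]

theorem dd1 (y2 : ℝ) : cx (dv4 y2 1) = dir 1 := by
  funext i
  fin_cases i <;> simp [cx, dv4, dir]

theorem dd2 (y2 : ℝ) : cx (dv4 y2 2) = dir 0 := by
  funext i
  fin_cases i <;> simp [cx, dv4, dir]

/-- the fourfold point of the central cluster -/
theorem four : P300L.FOUR := fun D A y2 ρ hP Q => by
  obtain ⟨M, hX, hS⟩ := P300LZ.mod D A y2 ρ hP Q Q.c0
  obtain ⟨P⟩ := P300LZ.pen hP Q Q.c0 false fun k _ => Q.full _
  have l := fun y => P.lin y (0, 0)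
  have m := interior_subset P.int
  simp only [bd_zero, Q.m0, P288.BQ.act_one, zero_mul, mul_eq_zero] at l hX
  have hp : P.p.1 = P0 := by
    have a := (l 0 (Q.m0 ▸ m)).resolve_left (P.a0 _ m)
    have b := (l 1 (Q.m0 ▸ m)).resolve_left (P.a0 _ m)
    simp only [lb, sd, Bool.false_eq_true, if_false] at a b
    push_cast at a b
    funext i
    fin_cases i
    · show P.p.1 0 = 20 / 17
      linear_combination -(20 / 17) * a
    · show P.p.1 1 = 0
      linear_combination a - b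
  have u : ∀ s, M.S s = Finset.univ := fun s =>
    Finset.eq_univ_of_forall fun i => (hS s i).2 (Q.full _)
  let R : Cm 2 → ℂ := fun z => mf y2 (some (false, 4)) z * mf y2 (some (false, 5)) z *
    mf y2 (some (false, 6)) z * ∏ i, mf y2 (some (true, i)) z
  have cR : Continuous R := by
    simp only [R, mf, lb, sd, rr, if_true, Bool.false_eq_true, if_false, Matrix.cons_val_zero,
      Matrix.cons_val_one]
    fun_prop
  have n : ∀ s k, ¬(k < 4 ∧ s = false) → mf y2 (some (s, k)) P0 ≠ 0 := fun s k e f => by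
    obtain ⟨j, a, b⟩ := (mf_P0 (s := false) hP rfl _).1 f
    obtain ⟨rfl, rfl⟩ := Prod.mk.inj (Option.some.inj b)
    exact e ⟨a, rfl⟩
  refine ⟨P.p, hp, -(M.V P.p ^ 2 * R P.p) / 48000, div_ne_zero (neg_ne_zero.2 (mul_ne_zero
    (pow_ne_zero 2 (M.V0 _ m)) ?_)) (by norm_num), P.k, fun v hv => ?_⟩
  · rw [hp]
    exact mul_ne_zero (mul_ne_zero (mul_ne_zero (n _ _ (by decide)) (n _ _ (by decide)))
      (n _ _ (by decide))) (Finset.prod_ne_zero_iff.2 fun i _ => n _ _ (by simp))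
  have c : ContinuousAt (fun t : ℂ => bd P.p (t, v)) 0 := by
    unfold bd
    fun_prop
  have nh := mem_interior_iff_mem_nhds.1 P.int
  have := eq_at_zero (f := fun t => D.hb P.p (t, v)) (g := fun t =>
    -(M.V (bd P.p (t, v)) ^ 2 * R (bd P.p (t, v))) / 48000 * ∏ j, dt (dv4 y2 j) v)
    ((D.hb_an _ P.p.2 (0, v) hv ((bd_zero _ _).symm ▸ M.sub m)).continuousAt.comp
      (f := fun t : ℂ => (t, v)) (by fun_prop))
    ((((((M.cV.continuousAt nh).comp_of_eq c (bd_zero _ _)).pow 2).mul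
      (cR.continuousAt.comp c)).neg.div_const _).mul continuousAt_const)
    ((c.eventually_mem (by simpa only [bd_zero] using nh)).mono fun t a t0 => by
      refine mul_left_cancel₀ (pow_ne_zero 4 t0) ?_
      have e := D.hb_eq _ P.p.2 (t, v) hv (M.sub a)
      rw [P.k, M.h_eq _ a, Fintype.prod_bool, u, u, hX] at e
      refine e.symm.trans ?_
      have k : ∀ y : ℝ, lb (17 / 20, y) (sd false (bd P.p (t, v))) =
          -t * (17 / 20 * v 0 + y * v 1) := fun y => by
        simp [hp, lb, sd, bd, P0]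
        ring
      simp only [R, mf]
      generalize ∏ i, lb (bb y2 i) (sd true (bd P.p (t, v))) = x
      rw [Fin.prod_univ_seven, Fin.prod_univ_four, bb_lt (i := 0) (by decide),
        bb_lt (i := 1) (by decide), bb_lt (i := 2) (by decide), bb_lt (i := 3) (by decide), k, k, k,
        k]
      generalize lb (bb y2 4) (sd false (bd P.p (t, v))) = x4
      generalize lb (bb y2 5) (sd false (bd P.p (t, v))) = x5
      generalize lb (bb y2 6) (sd false (bd P.p (t, v))) = x6
      simp [bb, dt, dv4]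
      ring)
  simpa only [bd_zero] using this

theorem link' : P300L.LINK := fun pol wind _ A y2 _ hP Q _ hp _ _ E h T =>
  let ⟨a, b⟩ := link E h pol wind A hP Q hp (dd0 y2) (dd1 y2) (dd2 y2)
  let ⟨φ, c, d⟩ := b T
  ⟨a, φ, c, fun _ k f u => d _ f u fun _ z => le_trans (a := nq _) z k⟩

theorem cr {ε y2 ρ : ℝ} (hP : Par ε y2 ρ) :
    0 < dr (dv4 y2 0) (dv4 y2 3) ∧ 0 < dr (dv4 y2 1) (dv4 y2 3) ∧ 0 < dr (dv4 y2 2) (dv4 y2 3) ∧
      dr (dv4 y2 0) (dv4 y2 2) ≠ 0 := by
  have := hP.y1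
  have := hP.y2
  refine ⟨?_, ?_, ?_, ?_⟩ <;> simp [dr, dv4] <;> first | linarith | norm_num

variable {L : Type} [Field L] [NumberField L] [NumberField.IsCMField L] {F : P300LA.Fld L} {κ : ℂ}

theorem cr' (P : P300LA.Pen F) : dr (dv4 P.y2 0) (dv4 P.y2 1) * dr (dv4 P.y2 2) (dv4 P.y2 3) =
    P.b / P.a * (dr (dv4 P.y2 0) (dv4 P.y2 2) * dr (dv4 P.y2 1) (dv4 P.y2 3)) := by
  have := P.apos
  have := P.bpos
  simp [dr, dv4, P300LA.Pen.y2]
  field_simp
  ring

theorem ell_penOne (hκ : κ ≠ 0) : Nonempty (Ell 1 (dv4 (P300LA.penOne F).y2) κ) :=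
  let ⟨a, b, c, d⟩ := cr (P300LA.penOne F).par
  P300LE.ell_one hκ a b c d (cr' _)

theorem ell_penTwo (hκ : κ ≠ 0) : Nonempty (Ell √2 (dv4 (P300LA.penTwo F).y2) κ) :=
  let ⟨a, b, c, d⟩ := cr (P300LA.penTwo F).par
  P300LE.ell_two hκ a b c d ((cr' _).trans (congrArg (· * _) (div_one _)))

end Vale.Agent.P300LR
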